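import Vale.Agent.P105.Final

namespace Vale.Agent.Results.P105.SingularSalem

open MeasureTheory Vale.Agent.P105

/-- A singular Bernoulli convolution whose parameter is not the inverse of a Pisot number. -/
theorem result : ∃ lam : ℝ, 1 / 2 < lam ∧ lam < 1 ∧
    lam ^ 4 - 2 * lam ^ 3 + lam ^ 2 - 2 * lam + 1 = 0 ∧
    ¬ IsPisot lam⁻¹ ∧
    ∃ A : Set ℝ, MeasurableSet A ∧ volume A = 0 ∧ bernoulliConv lam A = 1 := by
  refine ⟨beta⁻¹, ?_, lam_lt_one, ?_, by rw [inv_inv]; exact beta_not_isPisot, nu_singular⟩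
  · rw [lt_inv_comm₀ (by norm_num) beta_pos]
    linarith [beta_ub]
  · have h := beta_poly
    have hb := beta_ne_zero
    field_simp
    linarith

end Vale.Agent.Results.P105.SingularSalem
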